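import Vale.Agent.P150.Defs
import Vale.Agent.P150H.Final
import Vale.Agent.P150S.Final
import Vale.Agent.P150C.Crit
import Vale.Agent.P150C.Typ
import Vale.Agent.P150L.Low

/-! Mixing time of logarithmic order up to slightly beyond one half, polynomial slowing down at the critical point, and stretched exponential
slow mixing, from worst and from typical starts, above one. -/

namespace Vale.Agent.Results.P150.All3

open Vale.Agent.P150 Filter Topology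

theorem result :
    (∀ β : ℝ, 0 ≤ β → β ≤ 1 / 2 + 1 / 10 ^ 24 →
      ∃ C c : ℝ, 0 < c ∧ Tendsto (fun n : ℕ => disorder n {g : Pair n → ℝ |
        ¬ (tmix β g ≤ C * Real.log n ∧ (∀ t, C * Real.log n ≤ t → ∀ x, tv β g t x ≤ 1 / 4) ∧
          c ≤ gap β g ∧ gap β g ≤ 1)}) atTop (𝓝 0)) ∧
    (∀ β : ℝ, 0 ≤ β → β ≤ 1 → Tendsto (fun n : ℕ => disorder n {g : Pair n → ℝ |
      ¬ (1 / 500 * Real.log n ≤ tmix β g ∧
        ∀ t, 0 ≤ t → t ≤ 1 / 500 * Real.log n → ∃ x, 1 / 4 < tv β g t x)}) atTop (𝓝 0)) ∧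
    (∃ c : ℝ, 0 < c ∧ Tendsto (fun n : ℕ => disorder n {g : Pair n → ℝ |
      ¬ (c * (n / Real.log n) ^ (2 / 3 : ℝ) ≤ tmix 1 g ∧
        (∀ t, 0 ≤ t → t ≤ c * (n / Real.log n) ^ (2 / 3 : ℝ) → ∃ x, 1 / 4 < tv 1 g t x) ∧
        0 < gap 1 g ∧ c * (n / Real.log n) ^ (2 / 3 : ℝ) ≤ 1 / gap 1 g)}) atTop (𝓝 0)) ∧
    (∀ β : ℝ, 1 < β → Tendsto (fun n : ℕ => disorder n {g : Pair n → ℝ |
      ¬ (Real.exp ((n : ℝ) ^ (1 / 70000 : ℝ)) ≤ tmix β g ∧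
        (∀ t, 0 ≤ t → t ≤ Real.exp ((n : ℝ) ^ (1 / 70000 : ℝ)) → ∃ x, 1 / 4 < tv β g t x) ∧
        0 < gap β g ∧ Real.exp ((n : ℝ) ^ (1 / 70000 : ℝ)) ≤ 1 / gap β g)}) atTop (𝓝 0)) ∧
    (∀ β : ℝ, 1 < β → Tendsto (fun n : ℕ => disorder n {g : Pair n → ℝ |
      ¬ (∑ x, Set.indicator
          {x | ∃ t, 0 ≤ t ∧ t ≤ Real.exp ((n : ℝ) ^ (1 / 70000 : ℝ)) ∧ tv β g t x ≤ 1 / 4}
          (gibbs β g) x ≤ Real.exp (-(n : ℝ) ^ (1 / 70000 : ℝ) / 2))}) atTop (𝓝 0)) :=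
  ⟨Vale.Agent.P150H.main', Vale.Agent.P150L.low, Vale.Agent.P150C.crit, Vale.Agent.P150S.slow,
    Vale.Agent.P150C.slow_typ⟩

end Vale.Agent.Results.P150.All3
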