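import Vale.Agent.P150.Defs
import Vale.Agent.P150.Final
import Vale.Agent.P150S.Final

/-! Fast mixing below one half and stretched exponential slow mixing above one. -/

namespace Vale.Agent.Results.P150.Both

open Vale.Agent.P150 Filter Topology

theorem result :
    (∀ β : ℝ, 0 ≤ β → β < 1 / 2 →
      ∃ C c : ℝ, 0 < c ∧ Tendsto (fun n : ℕ => disorder n {g : Pair n → ℝ |
        ¬ (tmix β g ≤ C * Real.log n ∧ (∀ t, C * Real.log n ≤ t → ∀ x, tv β g t x ≤ 1 / 4) ∧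
          c ≤ gap β g ∧ gap β g ≤ 1)}) atTop (𝓝 0)) ∧
    (∀ β : ℝ, 1 < β → Tendsto (fun n : ℕ => disorder n {g : Pair n → ℝ |
      ¬ (Real.exp ((n : ℝ) ^ (1 / 70000 : ℝ)) ≤ tmix β g ∧
        (∀ t, 0 ≤ t → t ≤ Real.exp ((n : ℝ) ^ (1 / 70000 : ℝ)) → ∃ x, 1 / 4 < tv β g t x) ∧
        0 < gap β g ∧ Real.exp ((n : ℝ) ^ (1 / 70000 : ℝ)) ≤ 1 / gap β g)}) atTop (𝓝 0)) :=
  ⟨main, Vale.Agent.P150S.slow⟩

end Vale.Agent.Results.P150.Both
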